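import Vale.Agent.P237.Low.All

/-!
Petty's projection volume inequality in dimensions three, four and five, with its equality cases.
-/

open MeasureTheory Vale.Agent.P237

namespace Vale.Agent.Results.P237.PettyLowDimensions

/-- Petty's projection volume inequality for every convex body in three-, four- and five-space,
with equality exactly for ellipsoids. -/
theorem result :
    ∀ n : ℕ, 3 ≤ n → n ≤ 5 →
    ∀ K : Set (EuclideanSpace ℝ (Fin n)), Convex ℝ K → IsCompact K → (interior K).Nonempty →
      Every.kappa (n - 1) ^ n / Every.kappa n ^ (n - 2) * volume.real K ^ (n - 1) ≤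
        volume.real (Every.projBody K) ∧
      (volume.real (Every.projBody K) =
          Every.kappa (n - 1) ^ n / Every.kappa n ^ (n - 2) * volume.real K ^ (n - 1) ↔
        ∃ (a : EuclideanSpace ℝ (Fin n))
          (T : EuclideanSpace ℝ (Fin n) ≃ₗ[ℝ] EuclideanSpace ℝ (Fin n)),
          K = (fun x => a + T x) '' Metric.closedBall 0 1) :=
  fun n h3 h5 _ hc hk hi => Low.petty_low n h3 h5 hc hk hi

end Vale.Agent.Results.P237.PettyLowDimensions
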