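import Vale.Agent.P237.Gen.GN.Sharp
import Vale.Agent.P237.Every.Main

/-!
Petty's projection volume inequality in every dimension, up to an absolute constant.
-/

open MeasureTheory Vale.Agent.P237

namespace Vale.Agent.Results.P237.PettyUpToConstant

/-- In every dimension `k + 2` the volume of the projection body of a convex body is at least
`exp (-3/14)` times the conjectured bound, and at least a second, explicit bound. -/
theorem result :
    ∀ (k : ℕ) (K : Set (EuclideanSpace ℝ (Fin (k + 2)))), Convex ℝ K → IsCompact K →
      (interior K).Nonempty →
      Real.exp (-(3 / 14)) * (Every.kappa (k + 1) ^ (k + 2) / Every.kappa (k + 2) ^ k) *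
          volume.real K ^ (k + 1) ≤ volume.real (Every.projBody K) ∧
      Every.cst k * volume.real K ^ (k + 1) ≤ volume.real (Every.projBody K) :=
  fun _ _ hc hk _ => ⟨Gen.GN.petty_projBody_sharp (Nat.le_add_left _ _) hc hk,
    Every.cst_mul_le_projBody hc hk⟩

end Vale.Agent.Results.P237.PettyUpToConstant
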